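import Vale.Agent.P237C.Chk

/-! The polynomial inequalities behind the calibration. -/

namespace Vale.Agent.P237C

open Chk

/-- Coefficient of the third power in the calibration, and its partial derivatives. -/
noncomputable def s3 (t y : ℝ) : ℝ :=
  t * (-347 + 422 * y - 70 * y ^ 2 + 155 * t - 108 * t * y + 27 * t ^ 2) / 1000
noncomputable def s3t (t y : ℝ) : ℝ :=
  (-347 + 422 * y - 70 * y ^ 2 + 310 * t - 216 * t * y + 81 * t ^ 2) / 1000
noncomputable def s3y (t y : ℝ) : ℝ := t * (422 - 140 * y - 108 * t) / 1000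
/-- Coefficient of the fourth power in the calibration. -/
noncomputable def s4 (t y : ℝ) : ℝ := t * (-250 + 68 * y) / 1000

/-- Partial derivatives of the calibration. -/
noncomputable def St (t y T : ℝ) : ℝ :=
  3 * t * T * s3 t y + T ^ 3 * s3t t y + 4 * t * T ^ 2 * s4 t y + T ^ 4 * ((-250 + 68 * y) / 1000)
noncomputable def Sy (t y T : ℝ) : ℝ :=
  3 * y * T * s3 t y + T ^ 3 * s3y t y + 4 * y * T ^ 2 * s4 t y + T ^ 4 * (68 * t / 1000)

/-- The quantity whose sign is certified. -/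
noncomputable def Fc (t y T A ξ : ℝ) : ℝ :=
  T ^ 2 * (y - t * ξ) / (2 * (1 + T ^ 2)) -
    (1 - t ^ 2) * T ^ 2 * (A + 61 / 1000 * (4 - 6 * (1 - t ^ 2) - T ^ 2)) -
    (1 - t ^ 2) * St t y T + Sy t y T * (t * y - ξ)

namespace Cert

abbrev P2 := List (List ℤ)

def one : P2 := [[1]]
def sub (p q : P2) : P2 := add2 p (sc (-1) q)
def sq (p : P2) : P2 := mul2 p p
def cb (p : P2) : P2 := mul2 p (sq p)

def q3 (t y D : P2) : P2 :=
  add2 (add2 (sc (-347) (sq D)) (mul2 y (add2 (sc 422 D) (sc (-70) y))))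
    (mul2 t (add2 (add2 (sc 155 D) (sc (-108) y)) (sc 27 t)))
def q3t (t y D : P2) : P2 :=
  add2 (add2 (sc (-347) (sq D)) (mul2 y (add2 (sc 422 D) (sc (-70) y))))
    (mul2 t (add2 (add2 (sc 310 D) (sc (-216) y)) (sc 81 t)))
def q3y (t y D : P2) : P2 := mul2 t (add2 (add2 (sc 422 D) (sc (-140) y)) (sc (-108) t))
def q4 (y D : P2) : P2 := add2 (sc (-250) D) (sc 68 y)

def H1 (σ : ℤ) (b w t y D T qb mb : P2) : P2 :=
  add2 (sc (-2) (mul2 (mul2 b D) (add2 (sc 539 (sq D)) (sc (-61) (add2 (sc 24 w) (sq T))))))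
    (add2 (sc σ (add2 (sc (-3) (mul2 (mul2 t (q3 t y D)) qb))
        (mul2 T (add2 (sc (-2) (mul2 b (q3t t y D))) (mul2 mb (q3y t y D))))))
      (mul2 T (add2 (sc (-4) (mul2 (mul2 t (q4 y D)) qb))
        (mul2 T (add2 (sc (-2) (mul2 b (q4 y D))) (sc 68 (mul2 mb t)))))))

def H0 (σ : ℤ) (a b : P2) : P2 :=
  add2 (sc 500 (mul2 (sq (add2 one (mul2 a b))) (cb (add2 one (mul2 a b)))))
    (mul2 (add2 one (sq a)) (H1 σ b (mul2 a b) (sub one (mul2 a b)) (add2 a b)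
      (add2 one (mul2 a b)) (sub b a) (add2 one (sq b)) (sub one (sq b))))

def Pq (σ : ℤ) (a b M R : P2) : P2 :=
  add2 (mul2 (H0 σ a b) M)
    (sc (-590) (mul2 (mul2 (mul2 b (add2 one (sq a))) (cb (add2 one (mul2 a b)))) R))

def R1 (u v : P2) : P2 :=
  sc 2 (mul2 (sq (add2 one (mul2 u v))) (mul2 (add2 one (sq u)) (add2 one (sq v))))
def M1 (u v : P2) : P2 := add2 (R1 u v) (mul2 (add2 u v) (cb (sub v u)))
def R2 (u v : P2) : P2 := sc 4 (mul2 (add2 one (sq u)) (cb (add2 one (mul2 u v))))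
def M2 (u v : P2) : P2 :=
  add2 (add2 (R2 u v) (sc 2 (mul2 u (cb (sub v u)))))
    (mul2 (mul2 (add2 one (sq u)) (sub one (mul2 u v))) (add2 (sq (sub one (mul2 u v)))
      (sc 3 (sub (sq (add2 u v)) (sq (add2 one (mul2 u v)))))))

def X : P2 := [[1], [-1]]
def Y1 : P2 := [[1, -1]]
def Y2 : P2 := [[4, -3]]
def G1 : List P2 := [sub Y1 X]
def G2 : List P2 := [sub (sc 101 one) (sc 100 (mul2 X Y2)),
  sub (sc 201 (add2 one (mul2 X Y2))) (sc 100 (add2 X Y2))]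

theorem c1 : chk 14 (Pq 1 X Y1 (M1 X Y1) (R1 X Y1)) G1 = true := by decide +kernel
theorem c2 : chk 14 (Pq (-1) Y1 X (M1 X Y1) (R1 X Y1)) G1 = true := by decide +kernel
theorem c3 : chk 14 (Pq 1 X Y2 (M2 X Y2) (R2 X Y2)) G2 = true := by decide +kernel
theorem c4 : chk 14 (Pq (-1) Y2 X (M2 X Y2) (R2 X Y2)) G2 = true := by decide +kernel

end Cert

end Vale.Agent.P237C
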